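import Mathlib
import Vale.Agent.Lib.P042.Shift

namespace Vale.Agent.Results.P042.MultipleRootFamily

open Polynomial

/-- Ruzsa-type lower bound for `h = (X - b) ^ e * g`: if `m ≥ 2` is squarefree, `g` has positive
leading coefficient and no root modulo any prime factor of `m`, and `A ⊆ ZMod m` is a nonempty set
no two distinct elements of which differ by `g(b) * u ^ e`, then for some `c > 0` and every
`N ≥ 1` there is `S ⊆ {1, …, N}` with `(S - S) ∩ h(ℕ₊) ⊆ {0}` and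
`|S| ≥ c * N ^ (1 - 1/k + log |A| / (k log m))`, where `k = deg h`. -/
theorem result (m e : ℕ) (b : ℤ) (g : ℤ[X]) (A : Finset (ZMod m))
    (hm : Squarefree m) (hm2 : 2 ≤ m) (he : 1 ≤ e)
    (hlc : 0 < g.leadingCoeff)
    (hg : ∀ z : ℤ, IsCoprime (g.eval z) (m : ℤ))
    (hA : ∀ a ∈ A, ∀ a' ∈ A, a ≠ a' → ∀ u : ZMod m, a - a' ≠ ((g.eval b : ℤ) : ZMod m) * u ^ e)
    (hAne : A.Nonempty) :
    ∃ c : ℝ, 0 < c ∧ ∀ N : ℕ, 1 ≤ N →
      ∃ S : Finset ℕ, S ⊆ Finset.Icc 1 N ∧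
        (∀ x ∈ S, ∀ y ∈ S, ∀ n : ℕ, 1 ≤ n →
          (x : ℤ) - y = ((X - C b) ^ e * g).eval (n : ℤ) → x = y) ∧
        c * (N : ℝ) ^ (1 - 1 / (((X - C b) ^ e * g).natDegree : ℝ) + Real.log (A.card : ℝ) /
          ((((X - C b) ^ e * g).natDegree : ℝ) * Real.log (m : ℝ))) ≤ (S.card : ℝ) :=
  Vale.Agent.Lib.P042.lower_bound_shift_deg m e b g A hm hm2 he hlc hg hA hAne

end Vale.Agent.Results.P042.MultipleRootFamily
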