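import Mathlib
import Vale.Agent.Lib.P042.PowerE

namespace Vale.Agent.Results.P042.PerfectPowers

open Polynomial

/-- Ruzsa-type lower bound for perfect powers: if `f ∈ ℤ[X]` has positive degree and positive
leading coefficient and is separable over `ℚ`, and `e ≥ 2`, then for `h = f ^ e` of degree `k`
there are `c, δ > 0` such that for every `N ≥ 1` some `S ⊆ {1, …, N}` satisfies
`(S - S) ∩ h(ℕ₊) ⊆ {0}` and `|S| ≥ c * N ^ (1 - 1/k + δ)`. -/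
theorem result (f : ℤ[X]) (e : ℕ) (he : 2 ≤ e) (hd : 1 ≤ f.natDegree)
    (hlc : 0 < f.leadingCoeff) (hsep : (f.map (Int.castRingHom ℚ)).Separable) :
    ∃ c δ : ℝ, 0 < c ∧ 0 < δ ∧ ∀ N : ℕ, 1 ≤ N →
      ∃ S : Finset ℕ, S ⊆ Finset.Icc 1 N ∧
        (∀ x ∈ S, ∀ y ∈ S, ∀ n : ℕ, 1 ≤ n → (x : ℤ) - y = (f ^ e).eval (n : ℤ) → x = y) ∧
        c * (N : ℝ) ^ (1 - 1 / ((f ^ e).natDegree : ℝ) + δ) ≤ (S.card : ℝ) :=
  Vale.Agent.Lib.P042.power_lower_bound_sep f e he hd hlc hsep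

end Vale.Agent.Results.P042.PerfectPowers
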