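import Mathlib
import Vale.Agent.Lib.P042.Ruzsa

namespace Vale.Agent.Results.P042.QuarticExample

open Finset Polynomial Vale.Agent.Lib.P042

/-- A 12-element subset of `ZMod 205` no two distinct elements of which differ by a square. -/
def sqFree205 : Finset (ZMod 205) := {0, 2, 8, 14, 77, 79, 85, 96, 103, 109, 111, 181}

theorem sqFree205_card : sqFree205.card = 12 := by decide

set_option maxRecDepth 100000 in
theorem sqFree205_spec :
    ∀ a ∈ sqFree205, ∀ a' ∈ sqFree205, a ≠ a' → ∀ u : ZMod 205, a - a' ≠ u ^ 2 := by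
  decide +kernel

theorem sqf205 : Squarefree (205 : ℕ) := by
  decide +kernel

theorem no_root_5 : ∀ w : ZMod 5, w ^ 2 + w + 1 ≠ 0 := by decide

theorem no_root_41 : ∀ w : ZMod 41, w ^ 2 + w + 1 ≠ 0 := by decide

theorem coprime_g (z : ℤ) :
    IsCoprime ((X ^ 2 + X + 1 : ℤ[X]).eval z) ((205 : ℕ) : ℤ) := by
  have h5 : ¬ (((5 : ℕ) : ℤ) ∣ z ^ 2 + z + 1) := by
    intro h
    have h0 := (ZMod.intCast_zmod_eq_zero_iff_dvd (z ^ 2 + z + 1) 5).mpr h
    push_cast at h0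
    exact no_root_5 _ h0
  have h41 : ¬ (((41 : ℕ) : ℤ) ∣ z ^ 2 + z + 1) := by
    intro h
    have h0 := (ZMod.intCast_zmod_eq_zero_iff_dvd (z ^ 2 + z + 1) 41).mpr h
    push_cast at h0
    exact no_root_41 _ h0
  have e : (X ^ 2 + X + 1 : ℤ[X]).eval z = z ^ 2 + z + 1 := by simp
  rw [e]
  have h205 : ((205 : ℕ) : ℤ) = ((5 : ℕ) : ℤ) * ((41 : ℕ) : ℤ) := by norm_num
  rw [h205]
  have p5 : Prime ((5 : ℕ) : ℤ) := Nat.prime_iff_prime_int.mp (by norm_num)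
  have p41 : Prime ((41 : ℕ) : ℤ) := Nat.prime_iff_prime_int.mp (by norm_num)
  exact IsCoprime.mul_right (p5.coprime_iff_not_dvd.mpr h5).symm
    (p41.coprime_iff_not_dvd.mpr h41).symm

/-- For `h(x) = x^4 + x^3 + x^2 = x^2 (x^2 + x + 1)` (an intersective polynomial of degree 4
with the double root `0`), for every `N ≥ 1` there is a set `S ⊆ {1, …, N}` with no two
elements differing by a value `h(n)`, `n ≥ 1`, of size at least
`N ^ (3/4 + log 12 / (4 log 205)) / 205^3`. -/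
theorem result (N : ℕ) (hN : 1 ≤ N) :
    ∃ S : Finset ℕ, S ⊆ Finset.Icc 1 N ∧
      (∀ x ∈ S, ∀ y ∈ S, ∀ n : ℕ, 1 ≤ n →
        (x : ℤ) - (y : ℤ) ≠ (n : ℤ) ^ 4 + (n : ℤ) ^ 3 + (n : ℤ) ^ 2) ∧
      (N : ℝ) ^ ((3 : ℝ) / 4 + Real.log 12 / (4 * Real.log 205)) / (205 : ℝ) ^ 3
        ≤ (S.card : ℝ) := by
  have hA : ∀ a ∈ sqFree205, ∀ a' ∈ sqFree205, a ≠ a' → ∀ u : ZMod 205,
      a - a' ≠ (((X ^ 2 + X + 1 : ℤ[X]).eval 0 : ℤ) : ZMod 205) * u ^ 2 := by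
    intro a ha a' ha' hne u
    have := sqFree205_spec a ha a' ha' hne u
    simpa using this
  have hne : sqFree205.Nonempty := by
    rw [← Finset.card_pos, sqFree205_card]; norm_num
  obtain ⟨S, hS1, hS2, hS3⟩ := lower_bound 205 2 2 (X ^ 2 + X + 1) sqFree205 sqf205
    (by norm_num) (by norm_num) coprime_g hA hne N hN
  refine ⟨S, hS1, ?_, ?_⟩
  · intro x hx y hy n hn hxy
    have hgrow : |(n : ℤ)| ^ 2 ≤ |(X ^ 2 + X + 1 : ℤ[X]).eval (n : ℤ)| := by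
      have e : (X ^ 2 + X + 1 : ℤ[X]).eval (n : ℤ) = (n : ℤ) ^ 2 + n + 1 := by simp
      rw [e, abs_of_nonneg (by positivity), abs_of_nonneg (by positivity)]
      have : (0 : ℤ) ≤ n := by positivity
      linarith
    have heq : (x : ℤ) - y = (n : ℤ) ^ 2 * (X ^ 2 + X + 1 : ℤ[X]).eval (n : ℤ) := by
      rw [hxy]; simp; ring
    have hxy' := hS2 x hx y hy (n : ℤ) hgrow heq
    rw [hxy'] at hxy
    have hn' : (1 : ℤ) ≤ n := by exact_mod_cast hn
    have : (0 : ℤ) < (n : ℤ) ^ 4 + (n : ℤ) ^ 3 + (n : ℤ) ^ 2 := by positivity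
    linarith
  · have hexp : (1 - 1 / (((2 + 2 : ℕ)) : ℝ) + Real.log ((sqFree205.card : ℕ) : ℝ) /
        ((((2 + 2 : ℕ)) : ℝ) * Real.log ((205 : ℕ) : ℝ)))
        = (3 : ℝ) / 4 + Real.log 12 / (4 * Real.log 205) := by
      rw [sqFree205_card]; norm_num
    rw [hexp] at hS3
    exact_mod_cast hS3

end Vale.Agent.Results.P042.QuarticExample
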