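import Mathlib
import Vale.Agent.Lib.P042.Shift
import Vale.Agent.Lib.P042.PowerE
import Vale.Agent.Lib.P042.Example19

namespace Vale.Agent.Results.P042.RuzsaFamilies

open Polynomial

/-- Three Ruzsa-type lower bounds for `r_h(N)`, proved together.

(1) `h = (X - b) ^ e * g`: if `m ≥ 2` is squarefree, `g` has positive leading coefficient and no
root modulo any prime factor of `m`, and `A ⊆ ZMod m` is a nonempty set no two distinct elements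
of which differ by `g(b) * u ^ e`, then for some `c > 0` and every `N ≥ 1` there is
`S ⊆ {1, …, N}` with `(S - S) ∩ h(ℕ₊) ⊆ {0}` and
`|S| ≥ c * N ^ (1 - 1/k + log |A| / (k log m))`, where `k = deg h`.

(2) Perfect powers: if `f ∈ ℤ[X]` has positive degree and positive leading coefficient and is
separable over `ℚ`, and `e ≥ 2`, then for `h = f ^ e` of degree `k` there are `c, δ > 0` such
that for every `N ≥ 1` some `S ⊆ {1, …, N}` satisfies `(S - S) ∩ h(ℕ₊) ⊆ {0}` and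
`|S| ≥ c * N ^ (1 - 1/k + δ)`.

(3) For `h(x) = ((x^3 - 19)(x^2 + x + 1))^2` there is `c > 0` such that for every `N ≥ 1` some
`S ⊆ {1, …, N}` has no two elements differing by a value `h(n)`, `n ≥ 1`, and
`|S| ≥ c * N ^ (9/10 + log 12 / (10 log 205))`. -/
theorem result :
    (∀ (m e : ℕ) (b : ℤ) (g : ℤ[X]) (A : Finset (ZMod m)),
      Squarefree m → 2 ≤ m → 1 ≤ e → 0 < g.leadingCoeff →
      (∀ z : ℤ, IsCoprime (g.eval z) (m : ℤ)) →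
      (∀ a ∈ A, ∀ a' ∈ A, a ≠ a' → ∀ u : ZMod m,
        a - a' ≠ ((g.eval b : ℤ) : ZMod m) * u ^ e) →
      A.Nonempty →
      ∃ c : ℝ, 0 < c ∧ ∀ N : ℕ, 1 ≤ N →
        ∃ S : Finset ℕ, S ⊆ Finset.Icc 1 N ∧
          (∀ x ∈ S, ∀ y ∈ S, ∀ n : ℕ, 1 ≤ n →
            (x : ℤ) - y = ((X - C b) ^ e * g).eval (n : ℤ) → x = y) ∧
          c * (N : ℝ) ^ (1 - 1 / (((X - C b) ^ e * g).natDegree : ℝ) + Real.log (A.card : ℝ) /
            ((((X - C b) ^ e * g).natDegree : ℝ) * Real.log (m : ℝ))) ≤ (S.card : ℝ)) ∧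
    (∀ (f : ℤ[X]) (e : ℕ), 2 ≤ e → 1 ≤ f.natDegree → 0 < f.leadingCoeff →
      (f.map (Int.castRingHom ℚ)).Separable →
      ∃ c δ : ℝ, 0 < c ∧ 0 < δ ∧ ∀ N : ℕ, 1 ≤ N →
        ∃ S : Finset ℕ, S ⊆ Finset.Icc 1 N ∧
          (∀ x ∈ S, ∀ y ∈ S, ∀ n : ℕ, 1 ≤ n → (x : ℤ) - y = (f ^ e).eval (n : ℤ) → x = y) ∧
          c * (N : ℝ) ^ (1 - 1 / ((f ^ e).natDegree : ℝ) + δ) ≤ (S.card : ℝ)) ∧
    (∃ c : ℝ, 0 < c ∧ ∀ N : ℕ, 1 ≤ N →
      ∃ S : Finset ℕ, S ⊆ Finset.Icc 1 N ∧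
        (∀ x ∈ S, ∀ y ∈ S, ∀ n : ℕ, 1 ≤ n →
          (x : ℤ) - (y : ℤ) ≠ (((n : ℤ) ^ 3 - 19) * ((n : ℤ) ^ 2 + (n : ℤ) + 1)) ^ 2) ∧
        c * (N : ℝ) ^ ((9 : ℝ) / 10 + Real.log 12 / (10 * Real.log 205)) ≤ (S.card : ℝ)) :=
  ⟨fun m e b g A hm hm2 he hlc hg hA hAne =>
      Vale.Agent.Lib.P042.lower_bound_shift_deg m e b g A hm hm2 he hlc hg hA hAne,
    fun f e he hd hlc hsep => Vale.Agent.Lib.P042.power_lower_bound_sep f e he hd hlc hsep,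
    Vale.Agent.Lib.P042.f19_lower_bound⟩

end Vale.Agent.Results.P042.RuzsaFamilies
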